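import Mathlib
import Vale.Agent.Lib.P237.helper1.FrDefs
import Vale.Agent.Lib.P237.helper98.Mat

/-!
P237, job FR-1: three disjoint pieces (a cut-off part, a trapezoid, a scaled part) inside the
planar shadow of a frustum.
-/

namespace Vale.Agent.Lib.P237.H23

open MeasureTheory Set

theorem vol_add_right (A : Set (ℝ × ℝ)) (v : ℝ × ℝ) :
    volume ((fun x => x + v) '' A) = volume A := by
  rw [Set.image_add_right, measure_preimage_add_right]

theorem chordFn_apply (e₁ e₂ x : ℝ × ℝ) :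
    chordFn e₁ e₂ x = (e₂.1 - e₁.1) * (x.2 - e₁.2) - (e₂.2 - e₁.2) * (x.1 - e₁.1) := rfl

theorem chordFn_affine (e₁ e₂ e t : ℝ × ℝ) (lam : ℝ) :
    chordFn e₁ e₂ (lam • e + t) = lam * chordFn e₁ e₂ e + chordFn e₁ e₂ (lam • e₁ + t) := by
  rw [chordFn_apply, chordFn_apply, chordFn_apply]
  simp only [Prod.fst_add, Prod.snd_add, Prod.smul_fst, Prod.smul_snd, smul_eq_mul]
  ring

theorem chordFn_trap (e₁ e₂ t : ℝ × ℝ) (lam r s : ℝ) :
    chordFn e₁ e₂ (e₁ + r • (lam • e₁ + t - e₁) + s • (e₂ - e₁))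
      = r * chordFn e₁ e₂ (lam • e₁ + t) := by
  rw [chordFn_apply, chordFn_apply]
  simp only [Prod.fst_add, Prod.snd_add, Prod.smul_fst, Prod.smul_snd, smul_eq_mul,
    Prod.fst_sub, Prod.snd_sub]
  ring

theorem continuous_chordFn (e₁ e₂ : ℝ × ℝ) : Continuous (chordFn e₁ e₂) := by
  have h : chordFn e₁ e₂
      = fun x : ℝ × ℝ => (e₂.1 - e₁.1) * (x.2 - e₁.2) - (e₂.2 - e₁.2) * (x.1 - e₁.1) := rfl
  rw [h]
  fun_prop

theorem int_trap (lam : ℝ) : ∫ r in (0 : ℝ)..1, (1 - (1 - lam) * r) = (1 + lam) / 2 := by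
  have h : ∀ x ∈ Set.uIcc (0 : ℝ) 1,
      HasDerivAt (fun r : ℝ => r - (1 - lam) * r ^ 2 / 2) (1 - (1 - lam) * x) x := by
    intro x _
    have h1 : HasDerivAt (fun r : ℝ => r) 1 x := hasDerivAt_id x
    have h2 : HasDerivAt (fun r : ℝ => r ^ 2) (2 * x) x := by
      simpa using hasDerivAt_pow 2 x
    have h3 := h1.sub ((h2.const_mul (1 - lam)).div_const 2)
    have e : 1 - (1 - lam) * x = 1 - (1 - lam) * (2 * x) / 2 := by ring
    rw [e]
    exact h3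
  rw [intervalIntegral.integral_eq_sub_of_hasDerivAt h]
  · ring
  · exact (by fun_prop : Continuous fun r : ℝ => 1 - (1 - lam) * r).intervalIntegrable _ _

/-- The trapezoid in the parameter plane. -/
def trapT (lam : ℝ) : Set (ℝ × ℝ) :=
  regionBetween (fun _ : ℝ => (0 : ℝ)) (fun r : ℝ => 1 - (1 - lam) * r) (Ioo 0 1)

theorem vol_trapT (lam : ℝ) (hl0 : 0 ≤ lam) :
    volume (trapT lam) = ENNReal.ofReal ((1 + lam) / 2) := by
  unfold trapT
  rw [Measure.volume_eq_prod, volume_regionBetween_eq_integral]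
  · congr 1
    rw [← int_trap lam, intervalIntegral.integral_of_le zero_le_one, integral_Ioc_eq_integral_Ioo]
    apply integral_congr_ae
    exact Filter.Eventually.of_forall fun y => by simp
  · exact integrableOn_zero
  · exact ((by fun_prop : Continuous fun r : ℝ => 1 - (1 - lam) * r).integrableOn_Icc).mono_set
      Ioo_subset_Icc_self
  · exact measurableSet_Ioo
  · intro x hx
    have h0 := hx.1
    have h1 := hx.2
    nlinarith

theorem trap_lower (E : Set (ℝ × ℝ)) (hEv : Convex ℝ E) (lam : ℝ) (hl0 : 0 ≤ lam) (hl1 : lam ≤ 1)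
    (t e₁ e₂ : ℝ × ℝ) (h1 : e₁ ∈ E) (h2 : e₂ ∈ E)
    (hδ : 0 < chordFn e₁ e₂ (lam • e₁ + t)) (W : Set (ℝ × ℝ))
    (hW1 : ∀ e ∈ W, chordFn e₁ e₂ e ≤ 0) (hW2 : ∀ e ∈ E, e ∉ W → 0 ≤ chordFn e₁ e₂ e) :
    volume (E ∩ W) + ENNReal.ofReal (lam ^ 2) * volume (E \ W)
        + ENNReal.ofReal ((1 + lam) / 2 * chordFn e₁ e₂ (lam • e₁ + t))
      ≤ volume (frSet E lam t) := by
  have _hl1 := hl1
  have hG1 : MeasurableSet {x : ℝ × ℝ | chordFn e₁ e₂ x ≤ 0} :=
    (isClosed_le (continuous_chordFn e₁ e₂) continuous_const).measurableSet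
  have hG3 : MeasurableSet {x : ℝ × ℝ | chordFn e₁ e₂ (lam • e₁ + t) ≤ chordFn e₁ e₂ x} :=
    (isClosed_le continuous_const (continuous_chordFn e₁ e₂)).measurableSet
  -- piece 1
  have hS1 : E ∩ W ⊆ frSet E lam t ∩ {x : ℝ × ℝ | chordFn e₁ e₂ x ≤ 0} := by
    rintro e ⟨heE, heW⟩
    refine ⟨⟨e, heE, 0, le_rfl, zero_le_one, ?_⟩, hW1 e heW⟩
    rw [sub_zero, one_smul, zero_smul, add_zero]
  -- piece 3
  have hS3 : (fun e : ℝ × ℝ => lam • e + t) '' (E \ W) ⊆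
      (frSet E lam t \ {x : ℝ × ℝ | chordFn e₁ e₂ x ≤ 0}) ∩
        {x : ℝ × ℝ | chordFn e₁ e₂ (lam • e₁ + t) ≤ chordFn e₁ e₂ x} := by
    rintro y ⟨e, ⟨heE, heW⟩, rfl⟩
    have hg : chordFn e₁ e₂ (lam • e₁ + t) ≤ chordFn e₁ e₂ (lam • e + t) := by
      rw [chordFn_affine e₁ e₂ e t lam]
      have := mul_nonneg hl0 (hW2 e heE heW)
      linarith
    refine ⟨⟨⟨e, heE, 1, zero_le_one, le_rfl, ?_⟩, ?_⟩, hg⟩
    · show lam • e + t = (1 - 1 : ℝ) • e + (1 : ℝ) • (lam • e + t)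
      rw [sub_self, zero_smul, one_smul, zero_add]
    · intro hle
      have hle' : chordFn e₁ e₂ (lam • e + t) ≤ 0 := hle
      linarith
  -- piece 2
  have hS2 : (fun p : ℝ × ℝ => e₁ + p.1 • (lam • e₁ + t - e₁) + p.2 • (e₂ - e₁)) '' trapT lam ⊆
      (frSet E lam t \ {x : ℝ × ℝ | chordFn e₁ e₂ x ≤ 0}) \
        {x : ℝ × ℝ | chordFn e₁ e₂ (lam • e₁ + t) ≤ chordFn e₁ e₂ x} := by
    rintro y ⟨p, hp, rfl⟩
    obtain ⟨⟨hr0, hr1⟩, ⟨hs0, hs1⟩⟩ := hp
    have hs0' : 0 < p.2 := hs0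
    have hs1' : p.2 < 1 - (1 - lam) * p.1 := hs1
    have hg := chordFn_trap e₁ e₂ t lam p.1 p.2
    have hD : 0 < 1 - (1 - lam) * p.1 := by nlinarith
    have hσ0 : 0 ≤ p.2 / (1 - (1 - lam) * p.1) := div_nonneg hs0'.le hD.le
    have hσ1 : p.2 / (1 - (1 - lam) * p.1) ≤ 1 := (div_le_one hD).2 hs1'.le
    have hσD : p.2 / (1 - (1 - lam) * p.1) * (1 - (1 - lam) * p.1) = p.2 :=
      div_mul_cancel₀ _ hD.ne'
    have he : (1 - p.2 / (1 - (1 - lam) * p.1)) • e₁ + (p.2 / (1 - (1 - lam) * p.1)) • e₂ ∈ E :=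
      hEv h1 h2 (by linarith) hσ0 (by ring)
    refine ⟨⟨?_, ?_⟩, ?_⟩
    · refine ⟨_, he, p.1, hr0.le, hr1.le, ?_⟩
      generalize p.2 / (1 - (1 - lam) * p.1) = σ at hσD
      ext
      · simp only [Prod.fst_add, Prod.smul_fst, smul_eq_mul, Prod.fst_sub]
        rw [← hσD]
        ring
      · simp only [Prod.snd_add, Prod.smul_snd, smul_eq_mul, Prod.snd_sub]
        rw [← hσD]
        ring
    · intro hle
      have hle' : chordFn e₁ e₂ (e₁ + p.1 • (lam • e₁ + t - e₁) + p.2 • (e₂ - e₁)) ≤ 0 := hle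
      rw [hg] at hle'
      have := mul_pos hr0 hδ
      linarith
    · intro hge
      have hge' : chordFn e₁ e₂ (lam • e₁ + t)
          ≤ chordFn e₁ e₂ (e₁ + p.1 • (lam • e₁ + t - e₁) + p.2 • (e₂ - e₁)) := hge
      rw [hg] at hge'
      nlinarith
  -- volumes
  have hv3 : volume ((fun e : ℝ × ℝ => lam • e + t) '' (E \ W))
      = ENNReal.ofReal (lam ^ 2) * volume (E \ W) := by
    have himg : (fun e : ℝ × ℝ => lam • e + t) '' (E \ W)
        = (fun x : ℝ × ℝ => x + t) ''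
          ((fun p : ℝ × ℝ => (lam * p.1 + 0 * p.2, 0 * p.1 + lam * p.2)) '' (E \ W)) := by
      rw [Set.image_image]
      apply Set.image_congr
      intro e _
      ext <;> simp
    rw [himg, vol_add_right, vol_image_mat]
    congr 2
    rw [show lam * lam - 0 * 0 = lam ^ 2 by ring, abs_of_nonneg (sq_nonneg lam)]
  have hv2 : volume ((fun p : ℝ × ℝ => e₁ + p.1 • (lam • e₁ + t - e₁) + p.2 • (e₂ - e₁)) ''
        trapT lam)
      = ENNReal.ofReal (chordFn e₁ e₂ (lam • e₁ + t)) * ENNReal.ofReal ((1 + lam) / 2) := by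
    have himg : (fun p : ℝ × ℝ => e₁ + p.1 • (lam • e₁ + t - e₁) + p.2 • (e₂ - e₁)) '' trapT lam
        = (fun x : ℝ × ℝ => x + e₁) ''
          ((fun p : ℝ × ℝ => ((lam * e₁.1 + t.1 - e₁.1) * p.1 + (e₂.1 - e₁.1) * p.2,
            (lam * e₁.2 + t.2 - e₁.2) * p.1 + (e₂.2 - e₁.2) * p.2)) '' trapT lam) := by
      rw [Set.image_image]
      apply Set.image_congr
      intro p _
      ext
      · simp only [Prod.fst_add, Prod.smul_fst, smul_eq_mul, Prod.fst_sub]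
        ring
      · simp only [Prod.snd_add, Prod.smul_snd, smul_eq_mul, Prod.snd_sub]
        ring
    rw [himg, vol_add_right, vol_image_mat, vol_trapT lam hl0]
    congr 2
    have hdet : (lam * e₁.1 + t.1 - e₁.1) * (e₂.2 - e₁.2)
        - (e₂.1 - e₁.1) * (lam * e₁.2 + t.2 - e₁.2) = -chordFn e₁ e₂ (lam • e₁ + t) := by
      rw [chordFn_apply]
      simp only [Prod.fst_add, Prod.snd_add, Prod.smul_fst, Prod.smul_snd, smul_eq_mul]
      ring
    rw [hdet, abs_neg, abs_of_pos hδ]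
  calc volume (E ∩ W) + ENNReal.ofReal (lam ^ 2) * volume (E \ W)
        + ENNReal.ofReal ((1 + lam) / 2 * chordFn e₁ e₂ (lam • e₁ + t))
      = volume (E ∩ W) + (volume ((fun e : ℝ × ℝ => lam • e + t) '' (E \ W))
          + volume ((fun p : ℝ × ℝ => e₁ + p.1 • (lam • e₁ + t - e₁) + p.2 • (e₂ - e₁)) ''
            trapT lam)) := by
        rw [hv3, hv2, ENNReal.ofReal_mul (by linarith), mul_comm (ENNReal.ofReal ((1 + lam) / 2)),
          add_assoc]
    _ ≤ volume (frSet E lam t ∩ {x : ℝ × ℝ | chordFn e₁ e₂ x ≤ 0})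
          + (volume ((frSet E lam t \ {x : ℝ × ℝ | chordFn e₁ e₂ x ≤ 0}) ∩
              {x : ℝ × ℝ | chordFn e₁ e₂ (lam • e₁ + t) ≤ chordFn e₁ e₂ x})
            + volume ((frSet E lam t \ {x : ℝ × ℝ | chordFn e₁ e₂ x ≤ 0}) \
              {x : ℝ × ℝ | chordFn e₁ e₂ (lam • e₁ + t) ≤ chordFn e₁ e₂ x})) :=
        add_le_add (measure_mono hS1) (add_le_add (measure_mono hS3) (measure_mono hS2))
    _ = volume (frSet E lam t ∩ {x : ℝ × ℝ | chordFn e₁ e₂ x ≤ 0})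
          + volume (frSet E lam t \ {x : ℝ × ℝ | chordFn e₁ e₂ x ≤ 0}) := by
        rw [measure_inter_add_sdiff _ hG3]
    _ = volume (frSet E lam t) := measure_inter_add_sdiff _ hG1

end Vale.Agent.Lib.P237.H23
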